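import Vale.Agent.Results.P100.A_henon
import Vale.Agent.Lib.P100.Sliver
import Vale.Agent.Lib.P100.StairFinal
import Vale.Agent.Lib.P100.UStrip
import Vale.Agent.Lib.P100.NABU
import Vale.Agent.Lib.P100.AB.V6Main
import Vale.Agent.Lib.P100.AB.V2Main
import Vale.Agent.Lib.P100.AB.V2Nab
import Vale.Agent.Lib.P100.NABMain6
import Vale.Agent.Lib.P100.NGMain
import Vale.Agent.Lib.P100.NHMain
import Vale.Agent.Lib.P100.NPMain

/-!
# P100: what we prove about the (Hénon-)Lane-Emden conjecture, in one statement.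

All parts concern the exact solution class of the problem (`u, v` positive and continuous on `ℝⁿ`, `C²`
off the origin, equations off the origin).  With `a = 2 (p + 1) / (p q - 1)`, `b = 2 (q + 1) / (p q - 1)`,
the unweighted system is subcritical iff `a + b > n - 2`; for `A = B` iff `a + b > m - 2`,
`m = 2 (n + A) / (2 + A)`, iff `X Y < m²`, `X = (m-2) p - 2`, `Y = (m-2) q - 2`.
-/

open scoped BigOperators
open InnerProductSpace Laplacian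

noncomputable section

namespace Vale.Agent.Results.P100.AAAA_union

open Vale.Agent.Results.P100.A_henon

theorem unweighted {n : ℕ} {p q : ℝ} {u v : EuclideanSpace ℝ (Fin n) → ℝ}
    (h : IsPositiveEntireSolution n 0 0 p q u v) :
    Continuous u ∧ Continuous v ∧ (∀ x, 0 < u x) ∧ (∀ x, 0 < v x) ∧
      ContDiffOn ℝ 2 u {0}ᶜ ∧ ContDiffOn ℝ 2 v {0}ᶜ ∧
      (∀ x, x ≠ 0 → - Δ u x = v x ^ p) ∧ (∀ x, x ≠ 0 → - Δ v x = u x ^ q) := by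
  refine ⟨h.ucont, h.vcont, h.upos, h.vpos, h.uC2, h.vC2, ?_, ?_⟩
  · intro x hx
    have := h.ueq x hx
    simpa using this
  · intro x hx
    have := h.veq x hx
    simpa using this

/-- **Main theorem.** For the system `-Δu = |x|^A v^p`, `-Δv = |x|^B u^q` (class of the problem),
`p, q > 0`.
(0) `n >= 2`, real `A, B`: a solution forces `n >= 3`, `A, B > -2`, `p q > 1`,
`min(α, β) <= (n-2)/2` and `max(α, β) <= n-2`, `α = (2+A+p(2+B))/(pq-1)`, `β = (2+B+q(2+A))/(pq-1)`.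
(1) `n >= 4`, `-2 < A = B <= 0`, `m = 2 (n + A) / (2 + A) >= 5`: a solution forces `p q > 1`,
`X = (m-2) p - 2 > 0`, `Y = (m-2) q - 2 > 0` and `m² <= X Y + (X-Y)²/(X Y)`.
With `a = 2 (p + 1) / (p q - 1)`, `b = 2 (q + 1) / (p q - 1)`, `p q > 1`, no solution in each case:
(2) `A = B = 0`, `n >= 5`, `a + b >= n - 2 + 1/6`;
(3) `A = B = 0`, `n >= 12`, `a + b >= n - 2 + 1/50 + 3/(4(n-2))`;
(4) `A = B = 0`, `a, b <= n - 3`, `a + b >= n - 2 + e`, with `e = 1/200` if `n = 5`, `e = 1/50` if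
`n = 6, 7, 8`, `e = 1/8` if `n >= 9`;
(5) `A = B` in `(-2, 0)`, `m > 4`, `a + b >= m - 2 + 1/6`;
(6) `A = B` in `(-2, 0)`, `m >= 12`, `a + b >= m - 2 + 1/50 + 3/(4(m-2))`;
(7) `A = B` in `(-2, 0)`, `m >= 9`, `a, b <= m - 3`, `a + b >= m - 2 + 1/8`;
(8) `n >= 4`, `A = B` in `(-2, 0)`, `|cN m * p - 1| * |cN m * q - 1| < m^2`;
(9) `n >= 5`, real `A, B`, subcritical, `Good n A p g`, `Good n B q g⁻¹` for some `g > 0`;
(10) `n >= 4`, real `A, B`, subcritical, `0 < ω < 2`, `m = 2 (n - ω) / (2 - ω)`, `g > 0`, and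
`CondN m p (A + ω) g (A + ω + n - 2)`, `CondN m q (B + ω) g⁻¹ (B + ω + n - 2)`;
(11) real `A, B`, `W` in `(-2, 0)`, `m = 2 (n + W) / (2 + W) > 4`, `|A - W|, |B - W| <= (2 + W) / (10 (m - 2))`,
`a + b >= m - 2 + 1/2`;
(12) real `A, B`, `W` in `(-2, 0)`, `m = 2 (n + W) / (2 + W) > 4`, `W < A, B <= W + (n - 2) / 2`,
`a + b >= m - 2 + 1/2`;
(13) `n >= 5`, `0 <= A, B < (n - 2) / 2`, `a + b > n - 2 + 1/2`. -/
theorem result :
    (∀ (n : ℕ) (A B p q : ℝ), 2 ≤ n → 0 < p → 0 < q →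
      ∀ u v : EuclideanSpace ℝ (Fin n) → ℝ, IsPositiveEntireSolution n A B p q u v →
      3 ≤ n ∧ -2 < A ∧ -2 < B ∧ 1 < p * q ∧
        ¬ (((n : ℝ) - 2) * (p * q - 1) < 2 * (2 + A + p * (2 + B)) ∧
           ((n : ℝ) - 2) * (p * q - 1) < 2 * (2 + B + q * (2 + A))) ∧
        2 + A + p * (2 + B) ≤ ((n : ℝ) - 2) * (p * q - 1) ∧
        2 + B + q * (2 + A) ≤ ((n : ℝ) - 2) * (p * q - 1)) ∧
    (∀ (n : ℕ) (A p q m : ℝ), 4 ≤ n → -2 < A → A ≤ 0 → m = 2 * ((n : ℝ) + A) / (2 + A) → 5 ≤ m →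
      0 < p → 0 < q → ∀ u v : EuclideanSpace ℝ (Fin n) → ℝ, IsPositiveEntireSolution n A A p q u v →
        1 < p * q ∧ 0 < (m - 2) * p - 2 ∧ 0 < (m - 2) * q - 2 ∧
          m ^ 2 ≤ ((m - 2) * p - 2) * ((m - 2) * q - 2)
            + ((m - 2) * p - 2 - ((m - 2) * q - 2)) ^ 2 / (((m - 2) * p - 2) * ((m - 2) * q - 2))) ∧
    (∀ (n : ℕ) (p q : ℝ), 5 ≤ n → 0 < p → 0 < q → 1 < p * q →
      (n : ℝ) - 2 + 1 / 6 ≤ 2 * (p + 1) / (p * q - 1) + 2 * (q + 1) / (p * q - 1) →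
      ∀ u v : EuclideanSpace ℝ (Fin n) → ℝ, ¬ IsPositiveEntireSolution n 0 0 p q u v) ∧
    (∀ (n : ℕ) (p q : ℝ), 12 ≤ n → 0 < p → 0 < q → 1 < p * q →
      (n : ℝ) - 2 + 1 / 50 + 3 / (4 * ((n : ℝ) - 2))
        ≤ 2 * (p + 1) / (p * q - 1) + 2 * (q + 1) / (p * q - 1) →
      ∀ u v : EuclideanSpace ℝ (Fin n) → ℝ, ¬ IsPositiveEntireSolution n 0 0 p q u v) ∧
    (∀ (n : ℕ) (p q e : ℝ), ((n = 5 ∧ e = 1 / 200) ∨ ((n = 6 ∨ n = 7 ∨ n = 8) ∧ e = 1 / 50) ∨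
        (9 ≤ n ∧ e = 1 / 8)) → 0 < p → 0 < q → 1 < p * q →
      2 * (p + 1) / (p * q - 1) ≤ (n : ℝ) - 3 → 2 * (q + 1) / (p * q - 1) ≤ (n : ℝ) - 3 →
      (n : ℝ) - 2 + e ≤ 2 * (p + 1) / (p * q - 1) + 2 * (q + 1) / (p * q - 1) →
      ∀ u v : EuclideanSpace ℝ (Fin n) → ℝ, ¬ IsPositiveEntireSolution n 0 0 p q u v) ∧
    (∀ (n : ℕ) (A p q m : ℝ), -2 < A → A < 0 → 0 < p → 0 < q → 1 < p * q →
      m = 2 * ((n : ℝ) + A) / (2 + A) → 4 < m →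
      m - 2 + 1 / 6 ≤ 2 * (p + 1) / (p * q - 1) + 2 * (q + 1) / (p * q - 1) →
      ∀ u v : EuclideanSpace ℝ (Fin n) → ℝ, ¬ IsPositiveEntireSolution n A A p q u v) ∧
    (∀ (n : ℕ) (A p q m : ℝ), -2 < A → A < 0 → 0 < p → 0 < q → 1 < p * q →
      m = 2 * ((n : ℝ) + A) / (2 + A) → 12 ≤ m →
      m - 2 + 1 / 50 + 3 / (4 * (m - 2))
        ≤ 2 * (p + 1) / (p * q - 1) + 2 * (q + 1) / (p * q - 1) →
      ∀ u v : EuclideanSpace ℝ (Fin n) → ℝ, ¬ IsPositiveEntireSolution n A A p q u v) ∧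
    (∀ (n : ℕ) (A p q m : ℝ), -2 < A → A < 0 → 0 < p → 0 < q → 1 < p * q →
      m = 2 * ((n : ℝ) + A) / (2 + A) → 9 ≤ m →
      2 * (p + 1) / (p * q - 1) ≤ m - 3 → 2 * (q + 1) / (p * q - 1) ≤ m - 3 →
      m - 2 + 1 / 8 ≤ 2 * (p + 1) / (p * q - 1) + 2 * (q + 1) / (p * q - 1) →
      ∀ u v : EuclideanSpace ℝ (Fin n) → ℝ, ¬ IsPositiveEntireSolution n A A p q u v) ∧
    (∀ (n : ℕ) (A p q m : ℝ), 4 ≤ n → -2 < A → A < 0 → 0 < p → 0 < q → 1 < p * q →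
      m = 2 * ((n : ℝ) + A) / (2 + A) →
      |cN m * p - 1| * |cN m * q - 1| < m ^ 2 →
      ∀ u v : EuclideanSpace ℝ (Fin n) → ℝ, ¬ IsPositiveEntireSolution n A A p q u v) ∧
    (∀ (n : ℕ) (A B p q g : ℝ), 5 ≤ n → 0 < p → 0 < q → 1 < p * q → 0 < g →
      (n : ℝ) - 2 < ((n : ℝ) + A) / (p + 1) + ((n : ℝ) + B) / (q + 1) →
      Good n A p g → Good n B q g⁻¹ →
      ∀ u v : EuclideanSpace ℝ (Fin n) → ℝ, ¬ IsPositiveEntireSolution n A B p q u v) ∧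
    (∀ (n : ℕ) (A B p q g ω m : ℝ), 4 ≤ n → 0 < ω → ω < 2 → m = 2 * ((n : ℝ) - ω) / (2 - ω) →
      0 < p → 0 < q → 1 < p * q → 0 < g →
      (n : ℝ) - 2 < ((n : ℝ) + A) / (p + 1) + ((n : ℝ) + B) / (q + 1) →
      Vale.Agent.Lib.P100.CondN m p (A + ω) g (A + ω + n - 2) →
      Vale.Agent.Lib.P100.CondN m q (B + ω) g⁻¹ (B + ω + n - 2) →
      ∀ u v : EuclideanSpace ℝ (Fin n) → ℝ, ¬ IsPositiveEntireSolution n A B p q u v) ∧
    (∀ (n : ℕ) (W m A B p q : ℝ), W < 0 → -2 < W → m = 2 * ((n : ℝ) + W) / (2 + W) → 4 < m →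
      |A - W| ≤ (2 + W) / (10 * (m - 2)) → |B - W| ≤ (2 + W) / (10 * (m - 2)) →
      0 < p → 0 < q → 1 < p * q →
      m - 2 + 1 / 2 ≤ 2 * (p + 1) / (p * q - 1) + 2 * (q + 1) / (p * q - 1) →
      ∀ u v : EuclideanSpace ℝ (Fin n) → ℝ, ¬ IsPositiveEntireSolution n A B p q u v) ∧
    (∀ (n : ℕ) (W m A B p q : ℝ), W < 0 → -2 < W → m = 2 * ((n : ℝ) + W) / (2 + W) → 4 < m →
      W < A → A ≤ W + ((n : ℝ) - 2) / 2 → W < B → B ≤ W + ((n : ℝ) - 2) / 2 →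
      0 < p → 0 < q → 1 < p * q →
      m - 2 + 1 / 2 ≤ 2 * (p + 1) / (p * q - 1) + 2 * (q + 1) / (p * q - 1) →
      ∀ u v : EuclideanSpace ℝ (Fin n) → ℝ, ¬ IsPositiveEntireSolution n A B p q u v) ∧
    (∀ (n : ℕ) (A B p q : ℝ), 5 ≤ n → 0 ≤ A → A < ((n : ℝ) - 2) / 2 → 0 ≤ B → B < ((n : ℝ) - 2) / 2 →
      0 < p → 0 < q → 1 < p * q →
      (n : ℝ) - 2 + 1 / 2 < 2 * (p + 1) / (p * q - 1) + 2 * (q + 1) / (p * q - 1) →
      ∀ u v : EuclideanSpace ℝ (Fin n) → ℝ, ¬ IsPositiveEntireSolution n A B p q u v) := by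
  refine ⟨?_, ?_, ?_, ?_, ?_, ?_, ?_, ?_, ?_, A_henon.result.2, ?_, ?_, ?_, ?_⟩
  · intro n A B p q hn hp hq u v h
    exact Vale.Agent.Lib.P100.MP.solution_forces_max hn hp hq
      ⟨h.ucont, h.vcont, h.upos, h.vpos, h.uC2, h.vC2, h.ueq, h.veq⟩
  · intro n A p q m hn hA hA0 hm hm5 hp hq u v h
    exact Vale.Agent.Lib.P100.MP.solution_sliver hn hA hA0 hm hm5 hp hq
      ⟨h.ucont, h.vcont, h.upos, h.vpos, h.uC2, h.vC2, h.ueq, h.veq⟩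
  · intro n p q hn hp hq hpq hsum u v hs
    obtain ⟨h4, h5, h6, h7, h8, h9, h10, h11⟩ := unweighted hs
    exact Vale.Agent.Lib.P100.AB.V6.no_solution_all hn hp hq hpq hsum h4 h5 h6 h7 h8 h9 h10 h11
  · intro n p q hn hp hq hpq hsum u v hs
    obtain ⟨h4, h5, h6, h7, h8, h9, h10, h11⟩ := unweighted hs
    exact Vale.Agent.Lib.P100.AB.V2.no_solution_v2 hn hp hq hpq hsum h4 h5 h6 h7 h8 h9 h10 h11
  · intro n p q e he hp hq hpq h1 h2 h3 u v hs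
    obtain ⟨h4, h5, h6, h7, h8, h9, h10, h11⟩ := unweighted hs
    rcases he with ⟨rfl, rfl⟩ | ⟨hn, rfl⟩ | ⟨hn, rfl⟩
    · have e5 : Vale.Agent.Lib.P100.stairGap 5 = 1 / 200 := by
        simp [Vale.Agent.Lib.P100.stairGap]
      exact Vale.Agent.Lib.P100.no_solution_stair (n := 5) (Or.inl rfl) hp hq hpq h1 h2
        (by rw [e5]; exact h3) h4 h5 h6 h7 h8 h9 h10 h11
    · have e5 : Vale.Agent.Lib.P100.stairGap n = 1 / 50 := by
        rcases hn with rfl | rfl | rfl <;> simp [Vale.Agent.Lib.P100.stairGap]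
      exact Vale.Agent.Lib.P100.no_solution_stair (Or.inr hn) hp hq hpq h1 h2
        (by rw [e5]; exact h3) h4 h5 h6 h7 h8 h9 h10 h11
    · exact Vale.Agent.Lib.P100.US.no_solution_ustrip hn hp hq hpq h1 h2 h3 h4 h5 h6 h7 h8 h9 h10 h11
  · intro n A p q m hA2 hA hp hq hpq hm hm4 hsum u v h
    exact Vale.Agent.Lib.P100.AB.V6.no_solution_nab hA hA2 hm hm4 hp hq hpq hsum
      h.ucont h.vcont h.upos h.vpos h.uC2 h.vC2 h.ueq h.veq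
  · intro n A p q m hA2 hA hp hq hpq hm hm12 hsum u v h
    exact Vale.Agent.Lib.P100.AB.V2.no_solution_nab hA hA2 hm hm12 hp hq hpq hsum
      h.ucont h.vcont h.upos h.vpos h.uC2 h.vC2 h.ueq h.veq
  · intro n A p q m hA2 hA hp hq hpq hm hm9 h1 h2 hsum u v h
    exact Vale.Agent.Lib.P100.US.no_solution_nabu hA hA2 hm hm9 hp hq hpq h1 h2 hsum
      h.ucont h.vcont h.upos h.vpos h.uC2 h.vC2 h.ueq h.veq
  · intro n A p q m hn hA2 hA hp hq hpq hm hreg u v h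
    exact Vale.Agent.Lib.P100.no_solution_neg0 hn hA hA2 hp hq hpq hm hreg
      h.ucont h.vcont h.upos h.vpos h.uC2 h.vC2 h.ueq h.veq
  · intro n A B p q g ω m hn hω hω2 hm hp hq hpq hg hsub h1 h2 u v h
    have hnR : (4 : ℝ) ≤ n := by exact_mod_cast hn
    exact Vale.Agent.Lib.P100.no_solution_ng (n := n) (by omega) hω hω2 (by linarith) hm hp hq hpq hg
      hsub h1 h2 h.ucont h.vcont h.upos h.vpos h.uC2 h.vC2 h.ueq h.veq
  · intro n W m A B p q hW hW2 hm hm4 hAb hBb hp hq hpq hsum u v h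
    exact Vale.Agent.Lib.P100.AB.NHF.no_solution_near hW hW2 hm hm4 hAb hBb hp hq hpq hsum
      h.ucont h.vcont h.upos h.vpos h.uC2 h.vC2 h.ueq h.veq
  · intro n W m A B p q hW hW2 hm hm4 hA0 hA1 hB0 hB1 hp hq hpq hsum u v h
    exact Vale.Agent.Lib.P100.AB.NP.no_solution_pos hW hW2 hm hm4 hA0 hA1 hB0 hB1 hp hq hpq hsum
      h.ucont h.vcont h.upos h.vpos h.uC2 h.vC2 h.ueq h.veq
  · intro n A B p q hn hA0 hA1 hB0 hB1 hp hq hpq hsum u v h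
    exact Vale.Agent.Lib.P100.AB.NP.no_solution_nonneg hn hA0 hA1 hB0 hB1 hp hq hpq hsum
      h.ucont h.vcont h.upos h.vpos h.uC2 h.vC2 h.ueq h.veq

end Vale.Agent.Results.P100.AAAA_union
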