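import Vale.Agent.Lib.P100.AB.V6Main
import Vale.Agent.Lib.P100.NABMain6

/-!
# P100: the conjecture on the diagonal `A = B ≤ 0` outside a strip of width `1/6`.

With `a = 2 (p+1)/(p q - 1)`, `b = 2 (q+1)/(p q - 1)` the subcritical range (for `p q > 1`) is
`a + b > n - 2` when `A = B = 0`, and `a + b > m - 2`, `m = 2 (n + A)/(2 + A)`, when `A = B`.
Theorem: no positive entire solution as soon as `a + b ≥ n - 2 + 1/6` (`n ≥ 5`, `A = B = 0`),
respectively `a + b ≥ m - 2 + 1/6` (`-2 < A = B < 0`, `m > 4`, which is automatic for `n ≥ 4`).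
No restriction on the ratio of `p` and `q`.
Proof: an explicit closed-form family of pointwise certificates in the real dimension `m`
(`Vale.Agent.Lib.P100.AB.V6`), every polynomial inequality by exact Bernstein coefficients on
`0 ≤ d ≤ 1/2`, `0 ≤ t ≤ 1`; then the cut-off argument.
-/

open InnerProductSpace Laplacian

namespace Vale.Agent.Results.P100.AAA_all

/-- **Theorem.** (1) `n ≥ 5`, `p, q > 0`, `p q > 1`, `a + b ≥ n - 2 + 1/6`: the system `-Δu = v^p`,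
`-Δv = u^q` has no solution `u, v` positive and continuous on `ℝⁿ`, `C²` on `ℝⁿ \ {0}`, satisfying
the equations off the origin.  (2) `-2 < A < 0`, `m = 2 (n + A)/(2 + A) > 4`, `p, q > 0`, `p q > 1`,
`a + b ≥ m - 2 + 1/6`: the same for `-Δu = |x|^A v^p`, `-Δv = |x|^A u^q`.
Here `a = 2 (p+1)/(p q - 1)`, `b = 2 (q+1)/(p q - 1)`. -/
theorem result :
    (∀ (n : ℕ), 5 ≤ n → ∀ p q : ℝ, 0 < p → 0 < q → 1 < p * q →
      (n : ℝ) - 2 + 1 / 6 ≤ 2 * (p + 1) / (p * q - 1) + 2 * (q + 1) / (p * q - 1) →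
      ∀ u v : EuclideanSpace ℝ (Fin n) → ℝ,
        Continuous u → Continuous v → (∀ x, 0 < u x) → (∀ x, 0 < v x) →
        ContDiffOn ℝ 2 u {0}ᶜ → ContDiffOn ℝ 2 v {0}ᶜ →
        (∀ x, x ≠ 0 → - Δ u x = v x ^ p) → (∀ x, x ≠ 0 → - Δ v x = u x ^ q) → False) ∧
    (∀ (n : ℕ) (A m p q : ℝ), -2 < A → A < 0 → m = 2 * ((n : ℝ) + A) / (2 + A) → 4 < m →
      0 < p → 0 < q → 1 < p * q →
      m - 2 + 1 / 6 ≤ 2 * (p + 1) / (p * q - 1) + 2 * (q + 1) / (p * q - 1) →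
      ∀ u v : EuclideanSpace ℝ (Fin n) → ℝ,
        Continuous u → Continuous v → (∀ x, 0 < u x) → (∀ x, 0 < v x) →
        ContDiffOn ℝ 2 u {0}ᶜ → ContDiffOn ℝ 2 v {0}ᶜ →
        (∀ x, x ≠ 0 → - Δ u x = ‖x‖ ^ A * v x ^ p) →
        (∀ x, x ≠ 0 → - Δ v x = ‖x‖ ^ A * u x ^ q) → False) := by
  constructor
  · intro n hn p q hp hq hpq hsum u v hucont hvcont hupos hvpos hu hv hpdeU hpdeV
    exact Vale.Agent.Lib.P100.AB.V6.no_solution_all hn hp hq hpq hsum hucont hvcont hupos hvpos hu hv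
      hpdeU hpdeV
  · intro n A m p q hA2 hA hm hm4 hp hq hpq hsum u v hucont hvcont hupos hvpos hu hv hpdeU hpdeV
    exact Vale.Agent.Lib.P100.AB.V6.no_solution_nab hA hA2 hm hm4 hp hq hpq hsum hucont hvcont hupos
      hvpos hu hv hpdeU hpdeV

end Vale.Agent.Results.P100.AAA_all
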