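import Vale.Agent.Lib.P100.NPMain

/-!
# P100: unequal weights far from the diagonal, all ratios of `p, q`.

With `a = 2 (p+1)/(p q - 1)`, `b = 2 (q+1)/(p q - 1)`.  (1) `W ∈ (-2, 0)`, `m = 2 (n + W)/(2 + W) > 4`,
`W < A, B ≤ W + (n - 2)/2`, `a + b ≥ m - 2 + 1/2`: the Hénon-Lane-Emden system with weights `|x|^A`,
`|x|^B` has no positive solution.  (2) `n ≥ 5`, `0 ≤ A, B < (n - 2)/2`, `a + b > n - 2 + 1/2`: no
positive solution.  No relation between `A` and `B` other than these bounds, no restriction on the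
ratio of `p` and `q`, no boundedness, decay or stability hypothesis.
Proof: the explicit closed-form certificate family of the diagonal case, extended by the fields
`K1 s ξ`, `K2 t ξ`, `K1 = kS (A - W)`, `K2 = kT (B - W)`; scaling the last row of the block by the
weight, the weight only appears in the corner entry, monotonically; every polynomial inequality by
exact Bernstein coefficients on `0 ≤ d ≤ 1/2`, `0 ≤ t ≤ 1`; then the cut-off argument.
-/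

open InnerProductSpace Laplacian

namespace Vale.Agent.Results.P100.AAA_apos

/-- **Theorem.** Class: `u, v` positive and continuous on `ℝⁿ`, `C²` on `ℝⁿ \ {0}`,
`-Δu = |x|^A v^p`, `-Δv = |x|^B u^q` off the origin; `p, q > 0`, `p q > 1`.
(1) `-2 < W < 0`, `m = 2 (n + W)/(2 + W) > 4`, `W < A ≤ W + (n-2)/2`, `W < B ≤ W + (n-2)/2`,
`2 (p+1)/(p q - 1) + 2 (q+1)/(p q - 1) ≥ m - 2 + 1/2`: no such pair.
(2) `n ≥ 5`, `0 ≤ A, B < (n-2)/2`, `2 (p+1)/(p q - 1) + 2 (q+1)/(p q - 1) > n - 2 + 1/2`: no such pair. -/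
theorem result :
    (∀ (n : ℕ) (W m A B p q : ℝ), W < 0 → -2 < W → m = 2 * ((n : ℝ) + W) / (2 + W) → 4 < m →
      W < A → A ≤ W + ((n : ℝ) - 2) / 2 → W < B → B ≤ W + ((n : ℝ) - 2) / 2 →
      0 < p → 0 < q → 1 < p * q →
      m - 2 + 1 / 2 ≤ 2 * (p + 1) / (p * q - 1) + 2 * (q + 1) / (p * q - 1) →
      ∀ u v : EuclideanSpace ℝ (Fin n) → ℝ,
        Continuous u → Continuous v → (∀ x, 0 < u x) → (∀ x, 0 < v x) →
        ContDiffOn ℝ 2 u {0}ᶜ → ContDiffOn ℝ 2 v {0}ᶜ →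
        (∀ x, x ≠ 0 → - Δ u x = ‖x‖ ^ A * v x ^ p) →
        (∀ x, x ≠ 0 → - Δ v x = ‖x‖ ^ B * u x ^ q) → False) ∧
    (∀ (n : ℕ) (A B p q : ℝ), 5 ≤ n → 0 ≤ A → A < ((n : ℝ) - 2) / 2 → 0 ≤ B → B < ((n : ℝ) - 2) / 2 →
      0 < p → 0 < q → 1 < p * q →
      (n : ℝ) - 2 + 1 / 2 < 2 * (p + 1) / (p * q - 1) + 2 * (q + 1) / (p * q - 1) →
      ∀ u v : EuclideanSpace ℝ (Fin n) → ℝ,
        Continuous u → Continuous v → (∀ x, 0 < u x) → (∀ x, 0 < v x) →
        ContDiffOn ℝ 2 u {0}ᶜ → ContDiffOn ℝ 2 v {0}ᶜ →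
        (∀ x, x ≠ 0 → - Δ u x = ‖x‖ ^ A * v x ^ p) →
        (∀ x, x ≠ 0 → - Δ v x = ‖x‖ ^ B * u x ^ q) → False) := by
  constructor
  · intro n W m A B p q hW hW2 hm hm4 hA0 hA1 hB0 hB1 hp hq hpq hsum u v hucont hvcont hupos hvpos
      hu hv hpdeU hpdeV
    exact Vale.Agent.Lib.P100.AB.NP.no_solution_pos hW hW2 hm hm4 hA0 hA1 hB0 hB1 hp hq hpq hsum
      hucont hvcont hupos hvpos hu hv hpdeU hpdeV
  · intro n A B p q hn hA0 hA1 hB0 hB1 hp hq hpq hsum u v hucont hvcont hupos hvpos hu hv hpdeU hpdeV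
    exact Vale.Agent.Lib.P100.AB.NP.no_solution_nonneg hn hA0 hA1 hB0 hB1 hp hq hpq hsum
      hucont hvcont hupos hvpos hu hv hpdeU hpdeV

end Vale.Agent.Results.P100.AAA_apos
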