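import Vale.Agent.Lib.P100.MP.Mit

/-!
# P100: the Hénon-Lane-Emden system with real weights: everything outside the mixed zone.

For all `n ≥ 2`, real `A, B`, `p, q > 0`: a positive entire solution (the exact class of the problem)
forces `n ≥ 3`, `A, B > -2`, `p q > 1`, `min(α, β) ≤ (n-2)/2` and `max(α, β) ≤ n-2`, with the scaling exponents
`α = (2+A+p(2+B))/(pq-1)`, `β = (2+B+q(2+A))/(pq-1)`.
Proof: moving planes in the variable `log |x|` for `|x|^a u`, `|x|^b v`, `(n-2)/2 < a < α`, `(n-2)/2 < b < β`,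
then an iteration of lower bounds by barriers.
-/

open InnerProductSpace Laplacian

noncomputable section

namespace Vale.Agent.Results.P100.AAA_mp

/-- A positive entire solution, exactly as in the problem file: `u, v` continuous and positive on
`ℝⁿ`, `C²` off the origin, `-Δu = |x|^A v^p`, `-Δv = |x|^B u^q` off the origin. -/
structure IsPositiveEntireSolution (n : ℕ) (A B p q : ℝ) (u v : EuclideanSpace ℝ (Fin n) → ℝ) :
    Prop where
  ucont : Continuous u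
  vcont : Continuous v
  upos : ∀ x, 0 < u x
  vpos : ∀ x, 0 < v x
  uC2 : ContDiffOn ℝ 2 u {0}ᶜ
  vC2 : ContDiffOn ℝ 2 v {0}ᶜ
  ueq : ∀ x, x ≠ 0 → - Δ u x = ‖x‖ ^ A * v x ^ p
  veq : ∀ x, x ≠ 0 → - Δ v x = ‖x‖ ^ B * u x ^ q

open Vale.Agent.Lib.P100.MP in
theorem forces (n : ℕ) (A B p q : ℝ) (hn : 2 ≤ n) (hp : 0 < p) (hq : 0 < q)
    (u v : EuclideanSpace ℝ (Fin n) → ℝ) (h : IsPositiveEntireSolution n A B p q u v) :
    3 ≤ n ∧ -2 < A ∧ -2 < B ∧ 1 < p * q ∧
      ¬ (((n : ℝ) - 2) * (p * q - 1) < 2 * (2 + A + p * (2 + B)) ∧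
         ((n : ℝ) - 2) * (p * q - 1) < 2 * (2 + B + q * (2 + A))) ∧
      2 + A + p * (2 + B) ≤ ((n : ℝ) - 2) * (p * q - 1) ∧
      2 + B + q * (2 + A) ≤ ((n : ℝ) - 2) * (p * q - 1) :=
  solution_forces_max hn hp hq ⟨h.ucont, h.vcont, h.upos, h.vpos, h.uC2, h.vC2, h.ueq, h.veq⟩

/-- **Main theorem.** Let `n ≥ 2`, `A, B` real, `p, q > 0`.
(1) If the system has a positive entire solution then `n ≥ 3`, `A > -2`, `B > -2`, `p q > 1`, and it is
not the case that both `(n-2)(pq-1) < 2(2+A+p(2+B))` and `(n-2)(pq-1) < 2(2+B+q(2+A))`, that is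
`min(α, β) ≤ (n-2)/2` with `α = (2+A+p(2+B))/(pq-1)`, `β = (2+B+q(2+A))/(pq-1)`; moreover
`2+A+p(2+B) ≤ (n-2)(pq-1)` and `2+B+q(2+A) ≤ (n-2)(pq-1)`, that is `max(α, β) ≤ n-2`.
(2) No solution if `(n-2) p ≤ n+2+2A`, `(n-2) q ≤ n+2+2B`, not both equalities (the square).
(3) No solution if `p = q`, `A = B` and the parameters are subcritical (the full diagonal). -/
theorem result :
    (∀ (n : ℕ) (A B p q : ℝ), 2 ≤ n → 0 < p → 0 < q →
      ∀ u v : EuclideanSpace ℝ (Fin n) → ℝ, IsPositiveEntireSolution n A B p q u v →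
        3 ≤ n ∧ -2 < A ∧ -2 < B ∧ 1 < p * q ∧
          ¬ (((n : ℝ) - 2) * (p * q - 1) < 2 * (2 + A + p * (2 + B)) ∧
             ((n : ℝ) - 2) * (p * q - 1) < 2 * (2 + B + q * (2 + A))) ∧
          2 + A + p * (2 + B) ≤ ((n : ℝ) - 2) * (p * q - 1) ∧
          2 + B + q * (2 + A) ≤ ((n : ℝ) - 2) * (p * q - 1)) ∧
    (∀ (n : ℕ) (A B p q : ℝ), 2 ≤ n → 0 < p → 0 < q →
      ((n : ℝ) - 2) * p ≤ n + 2 + 2 * A → ((n : ℝ) - 2) * q ≤ n + 2 + 2 * B →
      (((n : ℝ) - 2) * p < n + 2 + 2 * A ∨ ((n : ℝ) - 2) * q < n + 2 + 2 * B) →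
      ∀ u v : EuclideanSpace ℝ (Fin n) → ℝ, ¬ IsPositiveEntireSolution n A B p q u v) ∧
    (∀ (n : ℕ) (A p : ℝ), 2 ≤ n → 0 < p →
      (n : ℝ) - 2 < (n + A) / (p + 1) + (n + A) / (p + 1) →
      ∀ u v : EuclideanSpace ℝ (Fin n) → ℝ, ¬ IsPositiveEntireSolution n A A p p u v) := by
  refine ⟨fun n A B p q hn hp hq u v h => forces n A B p q hn hp hq u v h, ?_, ?_⟩
  · intro n A B p q hn hp hq h1 h2 h3 u v h
    obtain ⟨_, _, _, hpq, hno, _, _⟩ := forces n A B p q hn hp hq u v h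
    apply hno
    have hsum1 : 2 * (2 + A + p * (2 + B)) - ((n : ℝ) - 2) * (p * q - 1)
        = ((n : ℝ) + 2 + 2 * A - ((n : ℝ) - 2) * p) + p * ((n : ℝ) + 2 + 2 * B - ((n : ℝ) - 2) * q) := by
      ring
    have hsum2 : 2 * (2 + B + q * (2 + A)) - ((n : ℝ) - 2) * (p * q - 1)
        = ((n : ℝ) + 2 + 2 * B - ((n : ℝ) - 2) * q) + q * ((n : ℝ) + 2 + 2 * A - ((n : ℝ) - 2) * p) := by
      ring
    have ha : 0 ≤ (n : ℝ) + 2 + 2 * A - ((n : ℝ) - 2) * p := by linarith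
    have hb : 0 ≤ (n : ℝ) + 2 + 2 * B - ((n : ℝ) - 2) * q := by linarith
    have hab : 0 < (n : ℝ) + 2 + 2 * A - ((n : ℝ) - 2) * p ∨ 0 < (n : ℝ) + 2 + 2 * B - ((n : ℝ) - 2) * q := by
      rcases h3 with h3 | h3
      · left; linarith
      · right; linarith
    constructor
    · have : 0 < 2 * (2 + A + p * (2 + B)) - ((n : ℝ) - 2) * (p * q - 1) := by
        rw [hsum1]
        rcases hab with hab | hab
        · have := mul_nonneg hp.le hb
          linarith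
        · have := mul_pos hp hab
          linarith
      linarith
    · have : 0 < 2 * (2 + B + q * (2 + A)) - ((n : ℝ) - 2) * (p * q - 1) := by
        rw [hsum2]
        rcases hab with hab | hab
        · have := mul_pos hq hab
          linarith
        · have := mul_nonneg hq.le ha
          linarith
      linarith
  · intro n A p hn hp hsub u v h
    obtain ⟨_, _, _, hpq, hno, _, _⟩ := forces n A A p p hn hp hp u v h
    apply hno
    have hp1 : 0 < p + 1 := by linarith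
    have h1 : ((n : ℝ) - 2) * (p + 1) < 2 * ((n : ℝ) + A) := by
      have h2 : (n + A) / (p + 1) + (n + A) / (p + 1) = 2 * ((n : ℝ) + A) / (p + 1) := by ring
      rw [h2, lt_div_iff₀ hp1] at hsub
      exact hsub
    have hp2 : 1 < p := by nlinarith
    have h3 : ((n : ℝ) - 2) * (p * p - 1) < 2 * (2 + A + p * (2 + A)) := by
      have h4 : 2 * (2 + A + p * (2 + A)) - ((n : ℝ) - 2) * (p * p - 1)
          = (p + 1) * ((n : ℝ) + 2 + 2 * A - ((n : ℝ) - 2) * p) := by ring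
      have h5 : 0 < (n : ℝ) + 2 + 2 * A - ((n : ℝ) - 2) * p := by nlinarith
      have := mul_pos hp1 h5
      linarith
    exact ⟨h3, h3⟩

end Vale.Agent.Results.P100.AAA_mp
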