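import Vale.Agent.Lib.P100.FromCell
import Vale.Agent.Lib.P100.S5.Main

/-!
# P100: the Lane-Emden conjecture in dimension five, away from a thin sliver at the critical hyperbola.

`-Δu = v^p`, `-Δv = u^q` on `ℝ⁵` (with `u, v` positive, continuous, `C²` off the origin, equations off
the origin: the exact class of the problem with `A = B = 0`). With `alpha = 2 (p + 1) / (p q - 1)`,
`beta = 2 (q + 1) / (p q - 1)`, subcriticality is `alpha + beta > 3`. The open range for `n = 5` is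
`max (alpha, beta) <= 2` (Souplet 2009 covers `max (alpha, beta) > n - 3 = 2`). We exclude solutions
on all of this range with `alpha + beta >= 3 + 1/200`.

Proof: integrating by parts against the field `W ∑ c_k F_k`, `W = u^a v^b`, with fourteen cubic fields
`F_k`, plus rational certificates on `708` rectangles of the `(p, q)`-plane.
-/

open InnerProductSpace Laplacian

namespace Vale.Agent.Results.P100.AAA_n5

open Vale.Agent.Lib.P100

/-- Triangle of the `(p, q)`-plane with `q <= p`. -/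
private theorem no_solution_aux {p q : ℝ} (hp : 0 < p) (hq : 0 < q) (hqp : q ≤ p) (hpq : 1 < p * q)
    (halpha : 2 * (p + 1) ≤ 2 * (p * q - 1))
    (hsum : (3 + 1 / 200) * (p * q - 1) ≤ 2 * (p + q + 2))
    {u v : EuclideanSpace ℝ (Fin 5) → ℝ} (hucont : Continuous u) (hvcont : Continuous v)
    (hupos : ∀ x, 0 < u x) (hvpos : ∀ x, 0 < v x)
    (hu : ContDiffOn ℝ 2 u {0}ᶜ) (hv : ContDiffOn ℝ 2 v {0}ᶜ)
    (hpdeU : ∀ x, x ≠ 0 → - Δ u x = v x ^ p)
    (hpdeV : ∀ x, x ≠ 0 → - Δ v x = u x ^ q) : False := by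
  have hT : Check.Tri 2 (1 / 200) p q :=
    ⟨hp, hq, hqp, halpha, by
      have e : (2 : ℝ) + 1 + 1 / 200 = 3 + 1 / 200 := by norm_num
      rw [e]; exact hsum⟩
  obtain ⟨a, b, c, c0, h⟩ := Check.S5.exists_cell hT
  have h' : Check.CellOK ((5 : ℕ) : ℝ) a b c c0 p q := by
    have e : ((5 : ℕ) : ℝ) = 5 := by norm_num
    rw [e]; exact h
  exact no_solution_of_cellOK (by norm_num) hp hq hpq h' hucont hvcont hupos hvpos hu hv hpdeU hpdeV

/-- **Lane-Emden in dimension five.** Let `p, q > 0`, `p q > 1`, `alpha = 2 (p + 1) / (p q - 1)`,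
`beta = 2 (q + 1) / (p q - 1)`, with `alpha <= 2`, `beta <= 2` and `alpha + beta >= 3 + 1/200`.
Then the system `-Δu = v^p`, `-Δv = u^q` has no positive solution on `ℝ⁵` that is continuous on `ℝ⁵`
and `C²` off the origin and satisfies the equations off the origin. -/
theorem result {p q : ℝ} (hp : 0 < p) (hq : 0 < q) (hpq : 1 < p * q)
    (halpha : 2 * (p + 1) / (p * q - 1) ≤ 2) (hbeta : 2 * (q + 1) / (p * q - 1) ≤ 2)
    (hsum : 3 + 1 / 200 ≤ 2 * (p + 1) / (p * q - 1) + 2 * (q + 1) / (p * q - 1))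
    (u v : EuclideanSpace ℝ (Fin 5) → ℝ) (hucont : Continuous u) (hvcont : Continuous v)
    (hupos : ∀ x, 0 < u x) (hvpos : ∀ x, 0 < v x)
    (hu : ContDiffOn ℝ 2 u {0}ᶜ) (hv : ContDiffOn ℝ 2 v {0}ᶜ)
    (hpdeU : ∀ x, x ≠ 0 → - Δ u x = v x ^ p)
    (hpdeV : ∀ x, x ≠ 0 → - Δ v x = u x ^ q) : False := by
  have hw : 0 < p * q - 1 := by linarith
  have h1 : 2 * (p + 1) ≤ 2 * (p * q - 1) := (div_le_iff₀ hw).mp halpha
  have h2 : 2 * (q + 1) ≤ 2 * (p * q - 1) := (div_le_iff₀ hw).mp hbeta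
  have h3 : (3 + 1 / 200) * (p * q - 1) ≤ 2 * (p + q + 2) := by
    have e : 2 * (p + 1) / (p * q - 1) + 2 * (q + 1) / (p * q - 1)
        = 2 * (p + q + 2) / (p * q - 1) := by
      rw [← add_div]; ring
    rw [e] at hsum
    exact (le_div_iff₀ hw).mp hsum
  rcases le_total q p with hqp | hpq'
  · exact no_solution_aux hp hq hqp hpq h1 h3 hucont hvcont hupos hvpos hu hv hpdeU hpdeV
  · refine no_solution_aux (p := q) (q := p) hq hp hpq' (by linarith [mul_comm p q]) ?_ ?_
      hvcont hucont hvpos hupos hv hu hpdeV hpdeU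
    · rw [mul_comm q p]; exact h2
    · rw [mul_comm q p]; linarith

end Vale.Agent.Results.P100.AAA_n5
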