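import Vale.Agent.Results.P100.A_henon
import Vale.Agent.Lib.P100.NGMain
import Vale.Agent.Lib.P100.Sliver

/-!
# P100: the Hénon-Lane-Emden system in every dimension `n ≥ 4`, beyond the moving-plane box.

With `m = 2 (n - ω) / (2 - ω)` (for `A = B = -ω` this is `2 (n + A) / (2 + A)`, and the weighted critical
hyperbola is then `X Y = m²`, `X = (m-2) p - 2`, `Y = (m-2) q - 2`):

(1) `n ≥ 4`, `-2 < A = B ≤ 0`, `m ≥ 5`: a solution forces `p q > 1`, `X, Y > 0`, `m² ≤ X Y + (X-Y)²/(X Y)`.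
So in the whole subcritical set only the sliver `X Y < m² ≤ X Y + (X-Y)²/(X Y)` stays open.
(2) `n ≥ 4`, `-2 < A = B < 0`, `c = (m+1)(m-2)/(m+2)`, `|c p - 1| |c q - 1| < m²`: no solution.
(3) `n ≥ 4`, real `A, B`, subcritical, `0 < ω < 2`, `g > 0`, `CondN m p (A+ω) g (A+ω+n-2)`,
`CondN m q (B+ω) g⁻¹ (B+ω+n-2)`: no solution.
(4) Two instances of (3), outside the box `α, β > (n-2)/2` and outside `max(α, β) > n-2`:
`n = 4`, `A = -1`, `B = -1/2`, `p = 1`, `q = 33/8`, where `α = 4/5`, `β = 9/5`;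
`n = 4`, `A = B = 1/2`, `p = 34/19`, `q = 44/9`, where `α = 9/10`, `β = 19/10`.

The solution class is exactly that of the problem. Proof: explicit pointwise Bochner certificates
(weight `|x|^ω u^a v^a`), a cut-off argument near the origin and at infinity; `X, Y > 0` comes from
`max(α, β) ≤ n-2` (iteration of lower bounds by barriers).
-/

open scoped BigOperators
open InnerProductSpace Laplacian

noncomputable section

namespace Vale.Agent.Results.P100.AAA_ng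

open Vale.Agent.Results.P100.A_henon

/-- **Main theorem.** Let `n ≥ 4`, `p, q > 0`, for `-Δu = |x|^A v^p`, `-Δv = |x|^B u^q` (class of the problem).
(1) If `-2 < A = B ≤ 0`, `m = 2 (n + A) / (2 + A) ≥ 5`, a positive entire solution forces `p q > 1`,
`X = (m-2) p - 2 > 0`, `Y = (m-2) q - 2 > 0`, `m² ≤ X Y + (X-Y)²/(X Y)`.
(2) No solution if `-2 < A = B < 0`, `p q > 1`, `|cS m p - 1| |cS m q - 1| < m²`.
(3) No solution if `A, B` are real, `p q > 1`, the parameters are subcritical, `0 < ω < 2`,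
`m = 2 (n - ω) / (2 - ω)`, `g > 0`, and `CondN` holds for both equations.
(4) In particular no solution for `n = 4`, `(A, B, p, q) = (-1, -1/2, 1, 33/8)` or `(1/2, 1/2, 34/19, 44/9)`. -/
theorem result :
    (∀ (n : ℕ) (A p q m : ℝ), 4 ≤ n → -2 < A → A ≤ 0 → m = 2 * ((n : ℝ) + A) / (2 + A) → 5 ≤ m →
      0 < p → 0 < q → ∀ u v : EuclideanSpace ℝ (Fin n) → ℝ, IsPositiveEntireSolution n A A p q u v →
        1 < p * q ∧ 0 < (m - 2) * p - 2 ∧ 0 < (m - 2) * q - 2 ∧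
          m ^ 2 ≤ ((m - 2) * p - 2) * ((m - 2) * q - 2)
            + ((m - 2) * p - 2 - ((m - 2) * q - 2)) ^ 2 / (((m - 2) * p - 2) * ((m - 2) * q - 2))) ∧
    (∀ (n : ℕ) (A p q m : ℝ), 4 ≤ n → -2 < A → A < 0 → m = 2 * ((n : ℝ) + A) / (2 + A) →
      0 < p → 0 < q → 1 < p * q →
      |Vale.Agent.Lib.P100.ClosedForm.cS m * p - 1| * |Vale.Agent.Lib.P100.ClosedForm.cS m * q - 1|
          < m ^ 2 →
      ∀ u v : EuclideanSpace ℝ (Fin n) → ℝ, ¬ IsPositiveEntireSolution n A A p q u v) ∧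
    (∀ (n : ℕ) (A B p q g ω m : ℝ), 4 ≤ n → 0 < ω → ω < 2 → m = 2 * ((n : ℝ) - ω) / (2 - ω) →
      0 < p → 0 < q → 1 < p * q → 0 < g →
      (n : ℝ) - 2 < ((n : ℝ) + A) / (p + 1) + ((n : ℝ) + B) / (q + 1) →
      Vale.Agent.Lib.P100.CondN m p (A + ω) g (A + ω + n - 2) →
      Vale.Agent.Lib.P100.CondN m q (B + ω) g⁻¹ (B + ω + n - 2) →
      ∀ u v : EuclideanSpace ℝ (Fin n) → ℝ, ¬ IsPositiveEntireSolution n A B p q u v) ∧
    (∀ u v : EuclideanSpace ℝ (Fin 4) → ℝ,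
      ¬ IsPositiveEntireSolution 4 (-1) (-1 / 2) 1 (33 / 8) u v) ∧
    (∀ u v : EuclideanSpace ℝ (Fin 4) → ℝ,
      ¬ IsPositiveEntireSolution 4 (1 / 2) (1 / 2) (34 / 19) (44 / 9) u v) := by
  refine ⟨?_, ?_, ?_, ?_, ?_⟩
  · intro n A p q m hn hA hA0 hm hm5 hp hq u v h
    exact Vale.Agent.Lib.P100.MP.solution_sliver hn hA hA0 hm hm5 hp hq
      ⟨h.ucont, h.vcont, h.upos, h.vpos, h.uC2, h.vC2, h.ueq, h.veq⟩
  · intro n A p q m hn hA hA0 hm hp hq hpq hreg u v h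
    exact Vale.Agent.Lib.P100.no_solution_neg0 (n := n) hn hA0 hA hp hq hpq hm hreg
      h.ucont h.vcont h.upos h.vpos h.uC2 h.vC2 h.ueq h.veq
  · intro n A B p q g ω m hn hω hω2 hm hp hq hpq hg hsub h1 h2 u v h
    have hnR : (4 : ℝ) ≤ n := by exact_mod_cast hn
    exact Vale.Agent.Lib.P100.no_solution_ng (n := n) (by omega) hω hω2 (by linarith) hm hp hq hpq
      hg hsub h1 h2 h.ucont h.vcont h.upos h.vpos h.uC2 h.vC2 h.ueq h.veq
  · intro u v h
    have h1 : Vale.Agent.Lib.P100.CondN (26 / 5) 1 (-1 + 3 / 4) (1 / 2)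
        (-1 + 3 / 4 + ((4 : ℕ) : ℝ) - 2) := by
      unfold Vale.Agent.Lib.P100.CondN Vale.Agent.Lib.P100.ClosedForm.cS
        Vale.Agent.Lib.P100.ClosedForm.aS
      refine ⟨?_, Or.inr (Or.inr ⟨by norm_num, ?_⟩)⟩
      · rw [abs_lt]; constructor <;> norm_num
      · norm_num
    have h2 : Vale.Agent.Lib.P100.CondN (26 / 5) (33 / 8) (-1 / 2 + 3 / 4) (1 / 2)⁻¹
        (-1 / 2 + 3 / 4 + ((4 : ℕ) : ℝ) - 2) := by
      unfold Vale.Agent.Lib.P100.CondN Vale.Agent.Lib.P100.ClosedForm.cS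
        Vale.Agent.Lib.P100.ClosedForm.aS
      refine ⟨?_, Or.inr (Or.inl ⟨by norm_num, by norm_num, ?_⟩)⟩
      · rw [abs_lt]; constructor <;> norm_num
      · norm_num
    exact Vale.Agent.Lib.P100.no_solution_ng (n := 4) (by norm_num) (ω := 3 / 4) (g := 1 / 2)
      (m := 26 / 5) (by norm_num) (by norm_num) (by norm_num) (by norm_num) (by norm_num)
      (by norm_num) (by norm_num) (by norm_num) (by norm_num) h1 h2 h.ucont h.vcont h.upos h.vpos
      h.uC2 h.vC2 h.ueq h.veq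
  · intro u v h
    have h1 : Vale.Agent.Lib.P100.CondN (798 / 199) (34 / 19) (1 / 2 + 1 / 100) (1 / 2)
        (1 / 2 + 1 / 100 + ((4 : ℕ) : ℝ) - 2) := by
      unfold Vale.Agent.Lib.P100.CondN Vale.Agent.Lib.P100.ClosedForm.cS
        Vale.Agent.Lib.P100.ClosedForm.aS
      refine ⟨?_, Or.inr (Or.inl ⟨by norm_num, by norm_num, ?_⟩)⟩
      · rw [abs_lt]; constructor <;> norm_num
      · norm_num
    have h2 : Vale.Agent.Lib.P100.CondN (798 / 199) (44 / 9) (1 / 2 + 1 / 100) (1 / 2)⁻¹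
        (1 / 2 + 1 / 100 + ((4 : ℕ) : ℝ) - 2) := by
      unfold Vale.Agent.Lib.P100.CondN Vale.Agent.Lib.P100.ClosedForm.cS
        Vale.Agent.Lib.P100.ClosedForm.aS
      refine ⟨?_, Or.inr (Or.inl ⟨by norm_num, by norm_num, ?_⟩)⟩
      · rw [abs_lt]; constructor <;> norm_num
      · norm_num
    exact Vale.Agent.Lib.P100.no_solution_ng (n := 4) (by norm_num) (ω := 1 / 100) (g := 1 / 2)
      (m := 798 / 199) (by norm_num) (by norm_num) (by norm_num) (by norm_num) (by norm_num)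
      (by norm_num) (by norm_num) (by norm_num) (by norm_num) h1 h2 h.ucont h.vcont h.upos h.vpos
      h.uC2 h.vC2 h.ueq h.veq

end Vale.Agent.Results.P100.AAA_ng
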