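import Vale.Agent.Lib.P100.UStrip

/-!
# P100: the Lane-Emden conjecture outside a strip of width `1/8`, uniformly in `n >= 9`.

With `alpha = 2 (p+1)/(p q - 1)`, `beta = 2 (q+1)/(p q - 1)` the critical line is
`alpha + beta = n - 2`.  Theorem: for `n >= 9`, if `alpha, beta <= n - 3` and
`alpha + beta >= n - 2 + 1/8` there is no positive solution.
Proof: the explicit design family `Vale.Agent.Lib.P100.US.ustrip_cert` (all polynomial inequalities by
Bernstein coefficients on two boxes) and the cut-off argument `no_solution_of_cert_lap`.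
-/

open InnerProductSpace Laplacian

namespace Vale.Agent.Results.P100.AAA_uniform

/-- **Theorem.** Let `n >= 9`, `p, q > 0`, `p q > 1`, `alpha = 2 (p+1)/(p q - 1)`,
`beta = 2 (q+1)/(p q - 1)`, with `alpha <= n - 3`, `beta <= n - 3` and `alpha + beta >= n - 2 + 1/8`.
Then `-Δ u = v^p`, `-Δ v = u^q` has no solution `u, v` positive and continuous on `ℝⁿ`, `C²` on
`ℝⁿ \ {0}`, satisfying the equations off the origin. -/
theorem result {n : ℕ} (hn : 9 ≤ n) {p q : ℝ} (hp : 0 < p) (hq : 0 < q) (hpq : 1 < p * q)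
    (halpha : 2 * (p + 1) / (p * q - 1) ≤ (n : ℝ) - 3)
    (hbeta : 2 * (q + 1) / (p * q - 1) ≤ (n : ℝ) - 3)
    (hsum : (n : ℝ) - 2 + 1 / 8 ≤ 2 * (p + 1) / (p * q - 1) + 2 * (q + 1) / (p * q - 1))
    {u v : EuclideanSpace ℝ (Fin n) → ℝ}
    (hucont : Continuous u) (hvcont : Continuous v)
    (hupos : ∀ x, 0 < u x) (hvpos : ∀ x, 0 < v x)
    (hu : ContDiffOn ℝ 2 u {0}ᶜ) (hv : ContDiffOn ℝ 2 v {0}ᶜ)
    (hpdeU : ∀ x, x ≠ 0 → - Δ u x = v x ^ p)
    (hpdeV : ∀ x, x ≠ 0 → - Δ v x = u x ^ q) : False :=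
  Vale.Agent.Lib.P100.US.no_solution_ustrip hn hp hq hpq halpha hbeta hsum hucont hvcont hupos hvpos
    hu hv hpdeU hpdeV

end Vale.Agent.Results.P100.AAA_uniform
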