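import Vale.Agent.Lib.P100.AB.V2Main

/-!
# P100: the Lane-Emden system for `n >= 12`, up to a strip of width `1/50 + 3/(4(n-2))`.

For every `n >= 12` and all `p, q > 0` with `p q > 1`: with `alpha = 2 (p + 1) / (p q - 1)`,
`beta = 2 (q + 1) / (p q - 1)` (subcriticality is `alpha + beta > n - 2`), if
`alpha + beta >= n - 2 + 1/50 + 3/(4(n-2))` there is no positive solution of `-Δu = v^p`, `-Δv = u^q`
in the exact class of the problem (continuous on `ℝⁿ`, `C²` off the origin, equations off the origin).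
-/

open InnerProductSpace Laplacian

namespace Vale.Agent.Results.P100.AAA_v2

/-- **Lane-Emden, `n >= 12`, all ratios, distance `1/50 + 3/(4(n-2))` from the critical line.** -/
theorem result {n : ℕ} (hn : 12 ≤ n) {p q : ℝ} (hp : 0 < p) (hq : 0 < q) (hpq : 1 < p * q)
    (hsum : (n : ℝ) - 2 + 1 / 50 + 3 / (4 * ((n : ℝ) - 2))
      ≤ 2 * (p + 1) / (p * q - 1) + 2 * (q + 1) / (p * q - 1))
    (u v : EuclideanSpace ℝ (Fin n) → ℝ) (hucont : Continuous u) (hvcont : Continuous v)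
    (hupos : ∀ x, 0 < u x) (hvpos : ∀ x, 0 < v x)
    (hu : ContDiffOn ℝ 2 u {0}ᶜ) (hv : ContDiffOn ℝ 2 v {0}ᶜ)
    (hpdeU : ∀ x, x ≠ 0 → - Δ u x = v x ^ p)
    (hpdeV : ∀ x, x ≠ 0 → - Δ v x = u x ^ q) : False :=
  Vale.Agent.Lib.P100.AB.V2.no_solution_v2 hn hp hq hpq hsum hucont hvcont hupos hvpos hu hv hpdeU hpdeV

end Vale.Agent.Results.P100.AAA_v2
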